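import Vale.Agent.P061.Defs

open Finset

namespace Vale.Agent.P061.H1

variable {V E : Type} [Fintype V] [Fintype E] [DecidableEq E]

/-- `μ` is a probability distribution on the spanning trees of `G` (a random spanning tree, with
arbitrary real probabilities). -/
structure IsTreeLaw (G : MGraph V E) (μ : Finset E → ℝ) : Prop where
  nonneg : ∀ T, 0 ≤ μ T
  sum_eq_one : ∑ T, μ T = 1
  isTree : ∀ T, μ T ≠ 0 → G.IsSpanningTree T

/-- The probability that the random tree contains the edge `e`. -/
def marg (μ : Finset E → ℝ) (e : E) : ℝ := ∑ T with e ∈ T, μ T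

/-- `x` is at least the vector of edge probabilities of some random spanning tree of `G`
(that is, `x` lies in the dominant of the spanning tree polytope). -/
def Dom (G : MGraph V E) (x : E → ℝ) : Prop :=
  ∃ μ : Finset E → ℝ, IsTreeLaw G μ ∧ ∀ e, marg μ e ≤ x e

/-- `T` is `C`-thin relative to `x`: it meets every cut `δ(S)` in at most `C x(δ(S))` edges. -/
def ThinFor [DecidableEq V] (G : MGraph V E) (x : E → ℝ) (C : ℝ) (T : Finset E) : Prop :=
  ∀ S : Finset V, ((T ∩ G.cut S).card : ℝ) ≤ C * ∑ e ∈ G.cut S, x e

end Vale.Agent.P061.H1
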