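import Vale.Agent.P061.H1.Push
import Mathlib.Analysis.Convex.StdSimplex
import Mathlib.Topology.Algebra.Order.LiminfLimsup
import Mathlib.Analysis.SpecificLimits.Basic

/-!
# Thin families of trees inside arbitrary families of trees, and distributions
-/

open Finset

namespace Vale.Agent.P061.H1

open Vale.Agent.P061 Vale.Agent.P061.H358

set_option linter.unusedSectionVars false

theorem cut_trivial {V E : Type} [Fintype V] [DecidableEq V] [Fintype E] [DecidableEq E]
    (G : MGraph V E) {S : Finset V} (h : ¬ (S.Nonempty ∧ S ≠ univ)) : G.cut S = ∅ := by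
  rw [not_and_or, Finset.not_nonempty_iff_eq_empty, not_not] at h
  ext e
  rcases h with rfl | rfl <;> simp [MGraph.cut]

/-- sharp sub-families -/
theorem intA : ∃ C c : ℝ, 0 < C ∧ 0 < c ∧
    ∀ (V E : Type) [Fintype V] [DecidableEq V] [Fintype E] [DecidableEq E] (G : MGraph V E)
      (t m : ℕ) (R : Fin t → Finset E), 1 ≤ m → m ≤ t → (∀ q, G.IsSpanningTree (R q)) →
      ∃ T : Fin m → Finset E, (∀ i, G.IsSpanningTree (T i)) ∧
        (∀ i, ∀ e ∈ T i, ∃ q, e ∈ R q) ∧
        ∀ S : Finset V, ∑ i, ((T i ∩ G.cut S).card : ℝ) ≤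
          (1 + C * (m : ℝ) ^ (-c)) * (m / t) * ∑ q, ((R q ∩ G.cut S).card : ℝ) := by
  obtain ⟨C, c, hC, hc, h, -⟩ := sharp_forms
  refine ⟨C, c, hC, hc, ?_⟩
  intro V E _ _ _ _ G t m R hm hmt hR
  obtain ⟨T, hT, hthin⟩ := h V (Cop R) (pull G (cpi R)) t m hm hmt ⟨cF R, isPacking_cF hR⟩
  refine ⟨fun i => (T i).image (cpi R), fun i => isTree_image (hT.1 i), ?_, fun S => ?_⟩
  · intro i e he
    obtain ⟨x, -, rfl⟩ := mem_image.1 he
    exact ⟨x.1, x.2.2⟩
  · by_cases hS : S.Nonempty ∧ S ≠ univ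
    · have h1 := hthin S hS.1 hS.2
      rw [card_cut_cop] at h1
      have h2 := sum_cut_le (G := G) (π := cpi R) hT.2 S
      have h3 : (∑ i, (((T i).image (cpi R) ∩ G.cut S).card : ℝ)) ≤
          (((univ.biUnion T) ∩ (pull G (cpi R)).cut S).card : ℝ) := by exact_mod_cast h2
      refine h3.trans (h1.trans (le_of_eq ?_))
      push_cast
      ring
    · simp [cut_trivial G hS]

/-- thin families of almost full size -/
theorem intB (ε : ℝ) (hε : 0 < ε) : ∃ C : ℝ, 0 < C ∧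
    ∀ (V E : Type) [Fintype V] [DecidableEq V] [Fintype E] [DecidableEq E] (G : MGraph V E)
      (t : ℕ) (R : Fin t → Finset E), 1 ≤ t → (∀ q, G.IsSpanningTree (R q)) →
      ∃ (s : ℕ) (T : Fin s → Finset E), (1 - ε) * t ≤ s ∧ (∀ i, G.IsSpanningTree (T i)) ∧
        (∀ e, (univ.filter fun i => e ∈ T i).card ≤ (univ.filter fun q => e ∈ R q).card) ∧
        ∀ i (S : Finset V), ((T i ∩ G.cut S).card : ℝ) ≤
          C / t * ∑ q, ((R q ∩ G.cut S).card : ℝ) := by
  obtain ⟨C, hC, h, -⟩ := almost_forms ε hε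
  refine ⟨C, hC, ?_⟩
  intro V E _ _ _ _ G t R ht hR
  obtain ⟨s, T, hs, hT, hthin⟩ := h V (Cop R) (pull G (cpi R)) t ht ⟨cF R, isPacking_cF hR⟩
  refine ⟨s, fun i => (T i).image (cpi R), hs, fun i => isTree_image (hT.1 i), fun e => ?_,
    fun i S => ?_⟩
  · exact (count_le hT.2 e).trans (card_fiber_cop R e).le
  · by_cases hS : S.Nonempty ∧ S ≠ univ
    · have h1 := hthin i S hS.1 hS.2
      rw [card_cut_cop] at h1
      have h2 := cut_image_le G (cpi R) (T i) S
      have h3 : (((T i).image (cpi R) ∩ G.cut S).card : ℝ) ≤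
          ((T i ∩ (pull G (cpi R)).cut S).card : ℝ) := by exact_mod_cast h2
      refine h3.trans (h1.trans (le_of_eq ?_))
      push_cast
      ring
    · simp [cut_trivial G hS]

section

variable {V E : Type} [Fintype V] [DecidableEq V] [Fintype E] [DecidableEq E]

theorem marg_nonneg {μ : Finset E → ℝ} (h : ∀ T, 0 ≤ μ T) (e : E) : 0 ≤ marg μ e :=
  sum_nonneg fun T _ => h T

theorem sum_cost (μ : Finset E → ℝ) (g : E → ℝ) :
    ∑ T, μ T * ∑ e ∈ T, g e = ∑ e, g e * marg μ e := by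
  unfold marg
  simp_rw [mul_sum, sum_filter]
  rw [sum_comm' (t' := univ) (s' := fun e => univ.filter fun T => e ∈ T)
    (h := by intro x y; simp)]
  refine sum_congr rfl fun e _ => ?_
  rw [sum_filter]
  refine sum_congr rfl fun T _ => ?_
  split_ifs with h
  · ring
  · ring

theorem sum_marg (μ : Finset E → ℝ) (A : Finset E) :
    ∑ T, μ T * ((T ∩ A).card : ℝ) = ∑ e ∈ A, marg μ e := by
  have h := sum_cost μ (fun e => if e ∈ A then 1 else 0)
  have h1 : ∀ T : Finset E, ∑ e ∈ T, (if e ∈ A then (1 : ℝ) else 0) = ((T ∩ A).card : ℝ) := by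
    intro T
    rw [← sum_filter, filter_mem_eq_inter, sum_const, nsmul_eq_mul, mul_one]
  simp_rw [h1] at h
  rw [h]
  simp [ite_mul]

theorem sum_marg_eq {G : MGraph V E} {μ : Finset E → ℝ} (hμ : IsTreeLaw G μ) :
    ∑ e, marg μ e = (Fintype.card V : ℝ) - 1 := by
  rw [← sum_marg μ univ]
  have h1 : ∀ T : Finset E, μ T * ((T ∩ univ).card : ℝ) =
      μ T * ((Fintype.card V : ℝ) - 1) := by
    intro T
    by_cases h : μ T = 0
    · rw [h, zero_mul, zero_mul]
    · have h2 := (hμ.isTree T h).1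
      rw [inter_univ]
      have h3 : ((T.card + 1 : ℕ) : ℝ) = Fintype.card V := by rw [h2]
      push_cast at h3
      rw [← h3]
      ring
  simp_rw [h1]
  rw [← sum_mul, hμ.sum_eq_one, one_mul]

/-- families approximating a distribution -/
theorem exists_family {G : MGraph V E} {μ : Finset E → ℝ} (hμ : IsTreeLaw G μ) (M : ℕ) :
    ∃ (t : ℕ) (R : Fin t → Finset E), (∀ q, μ (R q) ≠ 0) ∧
      (M : ℝ) - Fintype.card (Finset E) ≤ t ∧
      ∀ f : Finset E → ℝ, (∀ T, 0 ≤ f T) → ∑ q, f (R q) ≤ M * ∑ T, μ T * f T := by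
  set a : Finset E → ℕ := fun T => ⌊(M : ℝ) * μ T⌋₊ with ha
  have e : (Σ T : Finset E, Fin (a T)) ≃ Fin (∑ T, a T) :=
    Fintype.equivFinOfCardEq (by simp [Fintype.card_sigma])
  refine ⟨∑ T, a T, fun q => (e.symm q).1, ?_, ?_, ?_⟩
  · intro q h0
    have h1 := (e.symm q).2.isLt
    have h2 : a (e.symm q).1 = 0 := by simp [ha, h0]
    omega
  · push_cast
    have h2 : ∀ T, (M : ℝ) * μ T - 1 ≤ a T := fun T => by
      have := Nat.lt_floor_add_one ((M : ℝ) * μ T)
      simp only [ha]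
      linarith
    calc (M : ℝ) - Fintype.card (Finset E) = ∑ T, ((M : ℝ) * μ T - 1) := by
          rw [sum_sub_distrib, ← mul_sum, hμ.sum_eq_one]
          simp
      _ ≤ ∑ T, (a T : ℝ) := sum_le_sum fun T _ => h2 T
  · intro f hf
    have h1 : ∑ q, f ((e.symm q).1) = ∑ x : (Σ T : Finset E, Fin (a T)), f x.1 :=
      Equiv.sum_comp e.symm (fun x => f x.1)
    rw [h1, Fintype.sum_sigma, mul_sum]
    refine sum_le_sum fun T _ => ?_
    simp only [sum_const, card_univ, Fintype.card_fin, nsmul_eq_mul]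
    rw [← mul_assoc]
    refine mul_le_mul_of_nonneg_right ?_ (hf T)
    exact Nat.floor_le (mul_nonneg (Nat.cast_nonneg _) (hμ.nonneg T))

theorem family_cut {G : MGraph V E} {μ : Finset E → ℝ} {M t : ℕ} {R : Fin t → Finset E}
    (h : ∀ f : Finset E → ℝ, (∀ T, 0 ≤ f T) → ∑ q, f (R q) ≤ M * ∑ T, μ T * f T)
    (S : Finset V) :
    ∑ q, ((R q ∩ G.cut S).card : ℝ) ≤ M * ∑ e ∈ G.cut S, marg μ e := by
  have h1 := h (fun T => ((T ∩ G.cut S).card : ℝ)) (fun T => Nat.cast_nonneg _)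
  rwa [sum_marg] at h1

theorem family_count {μ : Finset E → ℝ} {M t : ℕ} {R : Fin t → Finset E}
    (h : ∀ f : Finset E → ℝ, (∀ T, 0 ≤ f T) → ∑ q, f (R q) ≤ M * ∑ T, μ T * f T)
    (e : E) : ((univ.filter fun q => e ∈ R q).card : ℝ) ≤ M * marg μ e := by
  have h1 := h (fun T => if e ∈ T then 1 else 0) (fun T => by split_ifs <;> norm_num)
  simp only [mul_ite, mul_one, mul_zero] at h1
  rw [← sum_filter, ← sum_filter, sum_const, nsmul_eq_mul, mul_one] at h1
  exact h1

/-! ### the uniform distribution on a family -/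

/-- the uniform distribution on a family of sets -/
noncomputable def uni {s : ℕ} (T : Fin s → Finset E) (A : Finset E) : ℝ :=
  ∑ i, if T i = A then 1 / (s : ℝ) else 0

theorem uni_nonneg {s : ℕ} (T : Fin s → Finset E) (A : Finset E) : 0 ≤ uni T A := by
  refine sum_nonneg fun i _ => ?_
  split_ifs
  · positivity
  · exact le_rfl

theorem uni_sum {s : ℕ} (hs : 1 ≤ s) (T : Fin s → Finset E) : ∑ A, uni T A = 1 := by
  unfold uni
  rw [sum_comm]
  simp only [sum_ite_eq, mem_univ, if_true, sum_const, card_univ, Fintype.card_fin, nsmul_eq_mul]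
  have : (s : ℝ) ≠ 0 := by
    have : s ≠ 0 := by omega
    exact_mod_cast this
  field_simp

theorem uni_supp {s : ℕ} {T : Fin s → Finset E} {A : Finset E} (h : uni T A ≠ 0) :
    ∃ i, T i = A := by
  by_contra hcon
  push Not at hcon
  apply h
  unfold uni
  exact sum_eq_zero fun i _ => if_neg (hcon i)

theorem uni_marg {s : ℕ} (T : Fin s → Finset E) (e : E) :
    marg (uni T) e = ((univ.filter fun i => e ∈ T i).card : ℝ) / s := by
  unfold marg uni
  rw [sum_comm]
  simp only [sum_ite_eq, mem_filter, mem_univ, true_and]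
  rw [← sum_filter, sum_const, nsmul_eq_mul, mul_one_div]

/-- A limit of distributions supported on good sets. -/
theorem exists_law {Good : Finset E → Prop} {b : E → ℝ} {B : ℕ → E → ℝ}
    (hB : ∀ e, Filter.Tendsto (fun M => B M e) Filter.atTop (nhds (b e)))
    (h : ∀ᶠ M in Filter.atTop, ∃ ν : Finset E → ℝ, (∀ T, 0 ≤ ν T) ∧ ∑ T, ν T = 1 ∧
      (∀ T, ν T ≠ 0 → Good T) ∧ ∀ e, marg ν e ≤ B M e) :
    ∃ ν : Finset E → ℝ, (∀ T, 0 ≤ ν T) ∧ ∑ T, ν T = 1 ∧
      (∀ T, ν T ≠ 0 → Good T) ∧ ∀ e, marg ν e ≤ b e := by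
  obtain ⟨N, hN⟩ := Filter.eventually_atTop.1 h
  choose ν h0 h1 h2 h3 using fun M : ℕ => hN (M + N) (Nat.le_add_left _ _)
  have hmem : ∀ M, ν M ∈ stdSimplex ℝ (Finset E) := fun M => ⟨h0 M, h1 M⟩
  obtain ⟨ρ, hρ, φ, hφ, hlim⟩ := (isCompact_stdSimplex ℝ (Finset E)).tendsto_subseq hmem
  have hlim' : ∀ T, Filter.Tendsto (fun j => ν (φ j) T) Filter.atTop (nhds (ρ T)) := fun T =>
    (tendsto_pi_nhds.1 hlim) T
  refine ⟨ρ, hρ.1, hρ.2, fun T hT => ?_, fun e => ?_⟩
  · by_contra hbad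
    apply hT
    have h4 : ∀ j, ν (φ j) T = 0 := fun j => by
      by_contra h5
      exact hbad (h2 _ _ h5)
    have h5 := hlim' T
    simp_rw [h4] at h5
    exact tendsto_nhds_unique h5 tendsto_const_nhds
  · have h4 : Filter.Tendsto (fun j => marg (ν (φ j)) e) Filter.atTop (nhds (marg ρ e)) :=
      tendsto_finsetSum _ fun T _ => hlim' T
    have h5 : Filter.Tendsto (fun j => B (φ j + N) e) Filter.atTop (nhds (b e)) :=
      (hB e).comp ((Filter.tendsto_add_atTop_nat N).comp hφ.tendsto_atTop)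
    exact le_of_tendsto_of_tendsto' h4 h5 fun j => h3 _ e

end

end Vale.Agent.P061.H1
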