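import Vale.Agent.P061.H1.Int

/-!
# Thin trees relative to a point of the spanning tree polytope
-/

open Finset

namespace Vale.Agent.P061.H1

open Vale.Agent.P061 Vale.Agent.P061.H358

set_option linter.unusedSectionVars false

theorem tendsto_ratio (K : ℝ) :
    Filter.Tendsto (fun M : ℕ => (M : ℝ) / ((M : ℝ) - K)) Filter.atTop (nhds 1) := by
  have h1 : Filter.Tendsto (fun M : ℕ => (M : ℝ) - K) Filter.atTop Filter.atTop :=
    Filter.tendsto_atTop_add_const_right _ (-K) tendsto_natCast_atTop_atTop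
  have h2 : Filter.Tendsto (fun M : ℕ => 1 + K / ((M : ℝ) - K)) Filter.atTop (nhds (1 + 0)) :=
    tendsto_const_nhds.add (h1.const_div_atTop K)
  rw [add_zero] at h2
  refine h2.congr' ?_
  filter_upwards [h1.eventually_gt_atTop 0] with M hM
  field_simp
  ring

/-- sparse families -/
theorem sparse : ∃ C c : ℝ, 0 < C ∧ 0 < c ∧
    ∀ (V E : Type) [Fintype V] [DecidableEq V] [Fintype E] [DecidableEq E] (G : MGraph V E)
      (μ : Finset E → ℝ) (m : ℕ), IsTreeLaw G μ → 1 ≤ m →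
      ∃ T : Fin m → Finset E, (∀ i, G.IsSpanningTree (T i)) ∧ (∀ i, ∀ e ∈ T i, 0 < marg μ e) ∧
        ∀ S : Finset V, ∑ i, ((T i ∩ G.cut S).card : ℝ) ≤
          m * (1 + C * (m : ℝ) ^ (-c)) * ∑ e ∈ G.cut S, marg μ e := by
  obtain ⟨C, c, hC, hc, h⟩ := intA
  refine ⟨C, c, hC, hc, ?_⟩
  intro V E _ _ _ _ G μ m hμ hm
  have hmR : (0 : ℝ) < m := by exact_mod_cast hm
  set A : ℝ := m * (1 + C * (m : ℝ) ^ (-c)) with hA
  have hA0 : 0 ≤ A := by positivity
  set K : ℝ := ((Fintype.card (Finset E) : ℕ) : ℝ) with hK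
  set X : Finset V → ℝ := fun S => ∑ e ∈ G.cut S, marg μ e with hX
  have hX0 : ∀ S, 0 ≤ X S := fun S => sum_nonneg fun e _ => marg_nonneg hμ.nonneg e
  -- the families for large `M`
  have hfam : ∀ᶠ M : ℕ in Filter.atTop, ∃ T : Fin m → Finset E,
      (∀ i, G.IsSpanningTree (T i)) ∧ (∀ i, ∀ e ∈ T i, 0 < marg μ e) ∧
      ∀ S : Finset V, ∑ i, ((T i ∩ G.cut S).card : ℝ) ≤ A * X S * ((M : ℝ) / (M - K)) := by
    have hlarge : ∀ᶠ M : ℕ in Filter.atTop, K + m ≤ (M : ℝ) :=
      tendsto_natCast_atTop_atTop.eventually_ge_atTop _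
    filter_upwards [hlarge] with M hM
    obtain ⟨t, R, hR, ht, hf⟩ := exists_family hμ M
    have hmt : m ≤ t := by
      have : (m : ℝ) ≤ t := by linarith
      exact_mod_cast this
    have htp : (0 : ℝ) < t := by linarith
    obtain ⟨T, h1, h2, h3⟩ := h V E G t m R hm hmt (fun q => hμ.isTree _ (hR q))
    refine ⟨T, h1, fun i e he => ?_, fun S => ?_⟩
    · obtain ⟨q, hq⟩ := h2 i e he
      refine sum_pos' (fun T _ => hμ.nonneg T) ⟨R q, by simp [hq], ?_⟩
      exact lt_of_le_of_ne (hμ.nonneg _) (hR q).symm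
    · refine (h3 S).trans ?_
      have h4 := family_cut (G := G) hf S
      calc (1 + C * (m : ℝ) ^ (-c)) * (m / t) * ∑ q, ((R q ∩ G.cut S).card : ℝ)
          ≤ (1 + C * (m : ℝ) ^ (-c)) * (m / t) * (M * X S) := by
            refine mul_le_mul_of_nonneg_left h4 (by positivity)
        _ = A * X S * (M / t) := by
            rw [hA]
            ring
        _ ≤ A * X S * (M / (M - K)) := by
            refine mul_le_mul_of_nonneg_left ?_ (mul_nonneg hA0 (hX0 S))
            refine div_le_div_of_nonneg_left (Nat.cast_nonneg _) (by linarith) ht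
  by_contra hcon
  push Not at hcon
  have hbad : ∀ᶠ M : ℕ in Filter.atTop, ∀ T : Fin m → Finset E,
      (∀ i, G.IsSpanningTree (T i)) → (∀ i, ∀ e ∈ T i, 0 < marg μ e) →
      ∃ S : Finset V, A * X S * ((M : ℝ) / (M - K)) < ∑ i, ((T i ∩ G.cut S).card : ℝ) := by
    rw [Filter.eventually_all]
    intro T
    by_cases h1 : ∀ i, G.IsSpanningTree (T i)
    · by_cases h2 : ∀ i, ∀ e ∈ T i, 0 < marg μ e
      · obtain ⟨S, hS⟩ := hcon T h1 h2
        have h3 : Filter.Tendsto (fun M : ℕ => A * X S * ((M : ℝ) / (M - K))) Filter.atTop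
            (nhds (A * X S * 1)) := (tendsto_ratio K).const_mul _
        rw [mul_one] at h3
        filter_upwards [h3.eventually_lt_const hS] with M hM _ _
        exact ⟨S, hM⟩
      · exact Filter.Eventually.of_forall fun _ _ h3 => absurd h3 h2
    · exact Filter.Eventually.of_forall fun _ h3 => absurd h3 h1
  obtain ⟨M, ⟨T, h1, h2, h3⟩, h4⟩ := (hfam.and hbad).exists
  obtain ⟨S, hS⟩ := h4 T h1 h2
  exact absurd (h3 S) (not_le.2 hS)

/-- rounding of distributions -/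
theorem rounding (ε : ℝ) (hε : 0 < ε) : ∃ C : ℝ, 0 < C ∧
    ∀ (V E : Type) [Fintype V] [DecidableEq V] [Fintype E] [DecidableEq E] (G : MGraph V E)
      (μ : Finset E → ℝ), IsTreeLaw G μ →
      ∃ ν : Finset E → ℝ, IsTreeLaw G ν ∧ (∀ T, ν T ≠ 0 → ThinFor G (marg μ) C T) ∧
        ∀ e, marg ν e ≤ (1 + ε) * marg μ e := by
  set δ : ℝ := ε / (1 + ε) with hδ
  have hδ0 : 0 < δ := by positivity
  have hδ1 : 1 - δ = 1 / (1 + ε) := by
    rw [hδ]
    field_simp
    ring
  obtain ⟨C, hC, h⟩ := intB δ hδ0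
  refine ⟨2 * C, by positivity, ?_⟩
  intro V E _ _ _ _ G μ hμ
  set K : ℝ := ((Fintype.card (Finset E) : ℕ) : ℝ) with hK
  have hK0 : 0 ≤ K := Nat.cast_nonneg _
  set X : Finset V → ℝ := fun S => ∑ e ∈ G.cut S, marg μ e with hX
  have hX0 : ∀ S, 0 ≤ X S := fun S => sum_nonneg fun e _ => marg_nonneg hμ.nonneg e
  have hlim : ∀ e, Filter.Tendsto (fun M : ℕ => (1 + ε) * marg μ e * ((M : ℝ) / (M - K)))
      Filter.atTop (nhds ((1 + ε) * marg μ e)) := fun e => by
    have := (tendsto_ratio K).const_mul ((1 + ε) * marg μ e)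
    rwa [mul_one] at this
  obtain ⟨ν, h1, h2, h3, h4⟩ := exists_law (Good := fun A => G.IsSpanningTree A ∧
    ∀ S : Finset V, ((A ∩ G.cut S).card : ℝ) ≤ 2 * C * X S) hlim (by
      have hlarge : ∀ᶠ M : ℕ in Filter.atTop, 2 * K + 2 ≤ (M : ℝ) :=
        tendsto_natCast_atTop_atTop.eventually_ge_atTop _
      filter_upwards [hlarge] with M hM
      obtain ⟨t, R, hR, ht, hf⟩ := exists_family hμ M
      have ht1 : (1 : ℝ) ≤ t := by linarith
      have hMt : (M : ℝ) ≤ 2 * t := by linarith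
      obtain ⟨s, T, hs, hT, hcount, hthin⟩ := h V E G t R (by exact_mod_cast ht1)
        (fun q => hμ.isTree _ (hR q))
      have hsp : (0 : ℝ) < s := by
        refine lt_of_lt_of_le ?_ hs
        rw [hδ1]
        positivity
      have hs1 : 1 ≤ s := by
        have : 0 < s := by exact_mod_cast hsp
        omega
      refine ⟨uni T, uni_nonneg T, uni_sum hs1 T, fun A hA => ?_, fun e => ?_⟩
      · obtain ⟨i, rfl⟩ := uni_supp hA
        refine ⟨hT i, fun S => (hthin i S).trans ?_⟩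
        calc C / t * ∑ q, ((R q ∩ G.cut S).card : ℝ) ≤ C / t * (M * X S) :=
              mul_le_mul_of_nonneg_left (family_cut hf S) (by positivity)
          _ = C * X S * (M / t) := by ring
          _ ≤ C * X S * 2 := by
              refine mul_le_mul_of_nonneg_left ?_ (mul_nonneg hC.le (hX0 S))
              rw [div_le_iff₀ (by linarith)]
              exact hMt
          _ = 2 * C * X S := by ring
      · rw [uni_marg]
        have h5 : ((univ.filter fun i => e ∈ T i).card : ℝ) ≤ M * marg μ e := by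
          refine le_trans ?_ (family_count hf e)
          exact_mod_cast hcount e
        have hMK : (0 : ℝ) < M - K := by linarith
        have h6 : (M - K) / (1 + ε) ≤ (s : ℝ) := by
          refine le_trans ?_ hs
          rw [hδ1, div_eq_mul_one_div, mul_comm]
          refine mul_le_mul_of_nonneg_left ht (by positivity)
        calc ((univ.filter fun i => e ∈ T i).card : ℝ) / s ≤ (M * marg μ e) / s := by gcongr
          _ ≤ (M * marg μ e) / ((M - K) / (1 + ε)) := by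
              refine div_le_div_of_nonneg_left ?_ (by positivity) h6
              exact mul_nonneg (Nat.cast_nonneg _) (marg_nonneg hμ.nonneg e)
          _ = (1 + ε) * marg μ e * ((M : ℝ) / (M - K)) := by
              field_simp)
  exact ⟨ν, ⟨h1, h2, fun T hT => (h3 T hT).1⟩, fun T hT => (h3 T hT).2, h4⟩

/-- fractional tree packing below a fractionally `2`-edge-connected vector -/
theorem exists_below {V E : Type} [Fintype V] [DecidableEq V] [Fintype E] [DecidableEq E]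
    (G : MGraph V E) (hV : 2 ≤ Fintype.card V) (x : E → ℝ) (hx : ∀ e, 0 ≤ x e)
    (hcut : ∀ S : Finset V, S.Nonempty → S ≠ univ → 2 ≤ ∑ e ∈ G.cut S, x e) :
    ∃ μ : Finset E → ℝ, IsTreeLaw G μ ∧ ∀ e, marg μ e ≤ x e := by
  have hlim : ∀ e, Filter.Tendsto (fun M : ℕ => x e + 1 / (M : ℝ)) Filter.atTop
      (nhds (x e)) := fun e => by
    have := (tendsto_one_div_atTop_nhds_zero_nat (𝕜 := ℝ)).const_add (x e)
    rwa [add_zero] at this
  obtain ⟨ν, h1, h2, h3, h4⟩ := exists_law (Good := fun A => G.IsSpanningTree A) hlim (by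
      filter_upwards [Filter.eventually_ge_atTop 1] with M hM
      have hMp : (0 : ℝ) < M := by
        have : 0 < M := by omega
        exact_mod_cast this
      have hEC : (pull G (Sigma.fst : (Σ e : E, Fin ⌈(M : ℝ) * x e⌉₊) → E)).EdgeConnected
          (2 * M) := by
        intro S hS hS'
        rw [card_cut_sigma G (fun e => ⌈(M : ℝ) * x e⌉₊) S]
        have h6 := hcut S hS hS'
        have h7 : ((2 * M : ℕ) : ℝ) ≤ ((∑ e ∈ G.cut S, ⌈(M : ℝ) * x e⌉₊ : ℕ) : ℝ) := by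
          push_cast
          calc 2 * (M : ℝ) ≤ (∑ e ∈ G.cut S, x e) * M := by nlinarith
            _ = ∑ e ∈ G.cut S, (M : ℝ) * x e := by
                rw [sum_mul]
                exact sum_congr rfl fun e _ => mul_comm _ _
            _ ≤ _ := sum_le_sum fun e _ => Nat.le_ceil _
        exact_mod_cast h7
      obtain ⟨F, -, hdis, htree⟩ := hasTrees_of_edgeConnected hV hEC
      have hk : 2 * M / 2 = M := by omega
      have hkR : ((2 * M / 2 : ℕ) : ℝ) = M := by rw [hk]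
      refine ⟨uni fun i => (F i).image Sigma.fst, uni_nonneg _, uni_sum (by omega) _,
        fun A hA => ?_, fun e => ?_⟩
      · obtain ⟨i, rfl⟩ := uni_supp hA
        exact isTree_image (htree i)
      · rw [uni_marg, hkR]
        have h8 := (count_le (π := (Sigma.fst : (Σ e : E, Fin ⌈(M : ℝ) * x e⌉₊) → E)) hdis e).trans
          (card_fiber_sigma (fun e => ⌈(M : ℝ) * x e⌉₊) e).le
        have h9 : ((univ.filter fun i => e ∈ (F i).image
            (Sigma.fst : (Σ e : E, Fin ⌈(M : ℝ) * x e⌉₊) → E)).card : ℝ) ≤ M * x e + 1 := by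
          have h10 := Nat.ceil_lt_add_one (mul_nonneg (Nat.cast_nonneg M) (hx e))
          have h11 : ((univ.filter fun i => e ∈ (F i).image
            (Sigma.fst : (Σ e : E, Fin ⌈(M : ℝ) * x e⌉₊) → E)).card : ℝ) ≤
              (⌈(M : ℝ) * x e⌉₊ : ℝ) := by exact_mod_cast h8
          linarith
        rw [div_le_iff₀ hMp]
        refine h9.trans (le_of_eq ?_)
        field_simp)
  exact ⟨ν, ⟨h1, h2, h3⟩, h4⟩

/-- some tree in the support is at most as expensive as the average -/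
theorem exists_cheap {V E : Type} [Fintype V] [DecidableEq V] [Fintype E] [DecidableEq E]
    {G : MGraph V E} {ν : Finset E → ℝ} (hν : IsTreeLaw G ν) {b : E → ℝ}
    (hb : ∀ e, marg ν e ≤ b e) (w : E → ℝ) (hw : ∀ e, 0 ≤ w e) :
    ∃ T, ν T ≠ 0 ∧ ∑ e ∈ T, w e ≤ ∑ e, w e * b e := by
  by_contra hcon
  push Not at hcon
  have h1 : ∑ e, w e * marg ν e ≤ ∑ e, w e * b e :=
    sum_le_sum fun e _ => mul_le_mul_of_nonneg_left (hb e) (hw e)
  rw [← sum_cost] at h1
  have h2 : ∑ T, ν T * ∑ e, w e * b e = ∑ e, w e * b e := by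
    rw [← sum_mul, hν.sum_eq_one, one_mul]
  have h3 : ∑ T, ν T * ∑ e, w e * b e < ∑ T, ν T * ∑ e ∈ T, w e := by
    refine sum_lt_sum (fun T _ => ?_) ?_
    · by_cases h : ν T = 0
      · rw [h, zero_mul, zero_mul]
      · exact mul_le_mul_of_nonneg_left (hcon T h).le (hν.nonneg T)
    · have h4 : ∃ T, ν T ≠ 0 := by
        by_contra h5
        push Not at h5
        have h6 := hν.sum_eq_one
        simp [h5] at h6
      obtain ⟨T, hT⟩ := h4
      exact ⟨T, mem_univ _, mul_lt_mul_of_pos_left (hcon T hT)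
        (lt_of_le_of_ne (hν.nonneg T) hT.symm)⟩
  linarith

/-- averaging over the stars -/
theorem lowerBound {V E : Type} [Fintype V] [DecidableEq V] [Fintype E] [DecidableEq E]
    {G : MGraph V E} {m : ℕ} {T : Fin m → Finset E} (hT : ∀ i, G.IsSpanningTree (T i))
    {x : E → ℝ} {α : ℝ}
    (h : ∀ S : Finset V, ∑ i, ((T i ∩ G.cut S).card : ℝ) ≤ m * α * ∑ e ∈ G.cut S, x e) :
    (m : ℝ) * ((Fintype.card V : ℝ) - 1) ≤ m * α * ∑ e, x e := by
  have hstar : ∀ (y : E → ℝ), ∑ v : V, ∑ e ∈ G.cut {v}, y e = 2 * ∑ e, y e := by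
    intro y
    have h1 : ∀ v : V, ∑ e ∈ G.cut {v}, y e =
        ∑ e, ((if G.fst e = v then y e else 0) + (if G.snd e = v then y e else 0)) := by
      intro v
      rw [MGraph.cut, sum_filter]
      refine sum_congr rfl fun e _ => ?_
      have hne := G.loopless e
      by_cases h2 : G.fst e = v
      · have h3 : G.snd e ≠ v := fun h3 => hne (h2.trans h3.symm)
        simp [h2, h3]
      · by_cases h3 : G.snd e = v
        · simp [h2, h3]
        · simp [h2, h3]
    simp_rw [h1]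
    rw [sum_comm, mul_sum]
    refine sum_congr rfl fun e _ => ?_
    rw [sum_add_distrib]
    simp only [sum_ite_eq, mem_univ, if_true]
    ring
  have h1 := sum_le_sum fun v (_ : v ∈ (univ : Finset V)) => h {v}
  rw [← mul_sum, hstar x, sum_comm] at h1
  have h2 : ∀ i, ∑ v : V, ((T i ∩ G.cut {v}).card : ℝ) = 2 * ((Fintype.card V : ℝ) - 1) := by
    intro i
    have h3 := hstar (fun e => if e ∈ T i then 1 else 0)
    have h4 : ∀ A : Finset E, ∑ e ∈ A, (if e ∈ T i then (1 : ℝ) else 0) =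
        ((T i ∩ A).card : ℝ) := by
      intro A
      rw [← sum_filter, filter_mem_eq_inter, sum_const, nsmul_eq_mul, mul_one, inter_comm]
    simp_rw [h4] at h3
    rw [h3, inter_univ]
    have h5 : (((T i).card + 1 : ℕ) : ℝ) = Fintype.card V := by rw [(hT i).1]
    push_cast at h5
    rw [← h5]
    ring
  simp_rw [h2] at h1
  rw [sum_const, card_univ, Fintype.card_fin, nsmul_eq_mul] at h1
  nlinarith

/-! ### versions for points of the dominant -/

theorem sum_mono {V E : Type} [Fintype V] [DecidableEq V] [Fintype E] [DecidableEq E]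
    {G : MGraph V E} {μ : Finset E → ℝ} {x : E → ℝ} (h : ∀ e, marg μ e ≤ x e) (S : Finset V) :
    ∑ e ∈ G.cut S, marg μ e ≤ ∑ e ∈ G.cut S, x e :=
  sum_le_sum fun e _ => h e

theorem dom_sparse : ∃ C c : ℝ, 0 < C ∧ 0 < c ∧
    ∀ (V E : Type) [Fintype V] [DecidableEq V] [Fintype E] [DecidableEq E] (G : MGraph V E)
      (x : E → ℝ) (m : ℕ), Dom G x → 1 ≤ m →
      ∃ T : Fin m → Finset E, (∀ i, G.IsSpanningTree (T i)) ∧ (∀ i, ∀ e ∈ T i, 0 < x e) ∧
        ∀ S : Finset V, ∑ i, ((T i ∩ G.cut S).card : ℝ) ≤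
          (1 + C * (m : ℝ) ^ (-c)) * m * ∑ e ∈ G.cut S, x e := by
  obtain ⟨C, c, hC, hc, h⟩ := sparse
  refine ⟨C, c, hC, hc, ?_⟩
  intro V E _ _ _ _ G x m ⟨μ, hμ, hx⟩ hm
  obtain ⟨T, h1, h2, h3⟩ := h V E G μ m hμ hm
  refine ⟨T, h1, fun i e he => (h2 i e he).trans_le (hx e), fun S => ?_⟩
  calc ∑ i, ((T i ∩ G.cut S).card : ℝ)
      ≤ m * (1 + C * (m : ℝ) ^ (-c)) * ∑ e ∈ G.cut S, marg μ e := h3 S
    _ ≤ m * (1 + C * (m : ℝ) ^ (-c)) * ∑ e ∈ G.cut S, x e :=
        mul_le_mul_of_nonneg_left (sum_mono hx S) (by positivity)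
    _ = (1 + C * (m : ℝ) ^ (-c)) * m * ∑ e ∈ G.cut S, x e := by ring

theorem dom_rounding (ε : ℝ) (hε : 0 < ε) : ∃ C : ℝ, 0 < C ∧
    ∀ (V E : Type) [Fintype V] [DecidableEq V] [Fintype E] [DecidableEq E] (G : MGraph V E)
      (x : E → ℝ), Dom G x →
      (∃ ν : Finset E → ℝ, IsTreeLaw G ν ∧ (∀ T, ν T ≠ 0 → ThinFor G x C T) ∧
        ∀ e, marg ν e ≤ (1 + ε) * x e) ∧
      ∀ w : E → ℝ, (∀ e, 0 ≤ w e) → ∃ T : Finset E, G.IsSpanningTree T ∧ ThinFor G x C T ∧
        ∑ e ∈ T, w e ≤ (1 + ε) * ∑ e, w e * x e := by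
  obtain ⟨C, hC, h⟩ := rounding ε hε
  refine ⟨C, hC, ?_⟩
  intro V E _ _ _ _ G x ⟨μ, hμ, hx⟩
  obtain ⟨ν, h1, h2, h3⟩ := h V E G μ hμ
  have h4 : ∀ T, ν T ≠ 0 → ThinFor G x C T := fun T hT S =>
    (h2 T hT S).trans (mul_le_mul_of_nonneg_left (sum_mono hx S) hC.le)
  have h5 : ∀ e, marg ν e ≤ (1 + ε) * x e := fun e =>
    (h3 e).trans (mul_le_mul_of_nonneg_left (hx e) (by linarith))
  refine ⟨⟨ν, h1, h4, h5⟩, fun w hw => ?_⟩
  obtain ⟨T, h6, h7⟩ := exists_cheap h1 h5 w hw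
  refine ⟨T, h1.isTree T h6, h4 T h6, h7.trans (le_of_eq ?_)⟩
  rw [mul_sum]
  exact sum_congr rfl fun e _ => by ring

theorem dom_of_cuts {V E : Type} [Fintype V] [DecidableEq V] [Fintype E] [DecidableEq E]
    (G : MGraph V E) (x : E → ℝ) (hV : 2 ≤ Fintype.card V) (hx : ∀ e, 0 ≤ x e)
    (hcut : ∀ S : Finset V, S.Nonempty → S ≠ univ → 2 ≤ ∑ e ∈ G.cut S, x e) : Dom G x :=
  exists_below G hV x hx hcut

theorem dom_of_edgeConnected {V E : Type} [Fintype V] [DecidableEq V] [Fintype E]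
    [DecidableEq E] (G : MGraph V E) {k : ℕ} (hk : 1 ≤ k) (hV : 2 ≤ Fintype.card V)
    (h : G.EdgeConnected k) : Dom G fun _ => 2 / (k : ℝ) := by
  have hkR : (0 : ℝ) < k := by
    have : 0 < k := by omega
    exact_mod_cast this
  refine dom_of_cuts G _ hV (fun _ => by positivity) fun S hS hS' => ?_
  have h1 : (k : ℝ) ≤ (G.cut S).card := by exact_mod_cast h S hS hS'
  rw [sum_const, nsmul_eq_mul, mul_div_assoc', le_div_iff₀ hkR]
  linarith

/-- distributions on thin trees of `k`-edge-connected graphs -/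
theorem connected_rounding (ε : ℝ) (hε : 0 < ε) : ∃ C : ℝ, 0 < C ∧
    ∀ (V E : Type) [Fintype V] [DecidableEq V] [Fintype E] [DecidableEq E] (G : MGraph V E)
      (k : ℕ), 1 ≤ k → 2 ≤ Fintype.card V → G.EdgeConnected k →
      (∃ ν : Finset E → ℝ, IsTreeLaw G ν ∧ (∀ T, ν T ≠ 0 → G.IsThin T (C / k)) ∧
        ∀ e, marg ν e ≤ (2 + ε) / k) ∧
      ∀ w : E → ℝ, (∀ e, 0 ≤ w e) → ∃ T : Finset E, G.IsSpanningTree T ∧ G.IsThin T (C / k) ∧
        ∑ e ∈ T, w e ≤ (2 + ε) / k * ∑ e, w e := by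
  obtain ⟨C, hC, h⟩ := dom_rounding (ε / 2) (by positivity)
  refine ⟨2 * C, by positivity, ?_⟩
  intro V E _ _ _ _ G k hk hV hG
  obtain ⟨⟨ν, h1, h2, h3⟩, h4⟩ := h V E G _ (dom_of_edgeConnected G hk hV hG)
  have h5 : ∀ T : Finset E, ThinFor G (fun _ => 2 / (k : ℝ)) C T → G.IsThin T (2 * C / k) := by
    intro T hT S _ _
    refine (hT S).trans (le_of_eq ?_)
    rw [sum_const, nsmul_eq_mul]
    ring
  refine ⟨⟨ν, h1, fun T hT => h5 T (h2 T hT), fun e => (h3 e).trans (le_of_eq (by ring))⟩,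
    fun w hw => ?_⟩
  obtain ⟨T, h6, h7, h8⟩ := h4 w hw
  refine ⟨T, h6, h5 T h7, h8.trans (le_of_eq ?_)⟩
  rw [← sum_mul]
  ring

/-- the constant `1` -/
theorem one_le {V E : Type} [Fintype V] [DecidableEq V] [Fintype E] [DecidableEq E]
    {G : MGraph V E} {μ : Finset E → ℝ} (hμ : IsTreeLaw G μ) (hV : 2 ≤ Fintype.card V) {m : ℕ}
    (hm : 1 ≤ m) {T : Fin m → Finset E} (hT : ∀ i, G.IsSpanningTree (T i)) {α : ℝ}
    (h : ∀ S : Finset V, ∑ i, ((T i ∩ G.cut S).card : ℝ) ≤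
      α * m * ∑ e ∈ G.cut S, marg μ e) : 1 ≤ α := by
  have h1 := lowerBound (x := marg μ) (α := α) hT (fun S => by
    rw [mul_comm (m : ℝ) α]
    exact h S)
  rw [sum_marg_eq hμ] at h1
  have h2 : (2 : ℝ) ≤ Fintype.card V := by exact_mod_cast hV
  have h3 : (1 : ℝ) ≤ m := by exact_mod_cast hm
  have h4 : (0 : ℝ) < m * ((Fintype.card V : ℝ) - 1) := mul_pos (by linarith) (by linarith)
  have h5 : m * ((Fintype.card V : ℝ) - 1) * 1 ≤ m * ((Fintype.card V : ℝ) - 1) * α := by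
    linarith
  exact le_of_mul_le_mul_left h5 h4

/-- the constant `2` -/
theorem optimal_two (n h : ℕ) (hn : 2 ≤ n) (hh : 1 ≤ h) :
    ∃ (V E : Type) (_ : Fintype V) (_ : DecidableEq V) (_ : Fintype E) (_ : DecidableEq E)
      (G : MGraph V E), Fintype.card V = n ∧ G.EdgeConnected (2 * h) ∧
      ∀ ν : Finset E → ℝ, IsTreeLaw G ν →
        ∃ e, 2 * (1 - 1 / (n : ℝ)) / ((2 * h : ℕ) : ℝ) ≤ marg ν e := by
  have hne : NeZero n := ⟨by omega⟩
  refine ⟨ZMod n, ZMod n × Fin h, inferInstance, inferInstance, inferInstance, inferInstance,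
    cyc n h hn, ZMod.card n, cyc_edgeConnected n h hn, fun ν hν => ?_⟩
  by_contra hcon
  push Not at hcon
  have h1 := sum_marg_eq hν
  have hnR : (0 : ℝ) < n := by
    have : 0 < n := by omega
    exact_mod_cast this
  have hhR : (0 : ℝ) < h := by
    have : 0 < h := by omega
    exact_mod_cast this
  have hE : Nonempty (ZMod n × Fin h) := ⟨(0, ⟨0, by omega⟩)⟩
  have h2 : ∑ e, marg ν e < ∑ e : ZMod n × Fin h, 2 * (1 - 1 / (n : ℝ)) / ((2 * h : ℕ) : ℝ) :=
    sum_lt_sum_of_nonempty univ_nonempty fun e _ => hcon e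
  rw [h1, sum_const, card_univ, Fintype.card_prod, ZMod.card, Fintype.card_fin, nsmul_eq_mul] at h2
  push_cast at h2
  have h3 : (n : ℝ) * h * (2 * (1 - 1 / (n : ℝ)) / (2 * h)) = n - 1 := by
    field_simp
  rw [h3] at h2
  exact lt_irrefl _ h2

end Vale.Agent.P061.H1
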