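import Vale.Agent.P061.H358.Cyc
import Vale.Agent.P061.H1.Defs

/-!
# Spanning trees of a graph from spanning trees of a graph with copies of its edges
-/

open Finset

namespace Vale.Agent.P061.H1

open Vale.Agent.P061 Vale.Agent.P061.H358

set_option linter.unusedSectionVars false

variable {V E : Type} [Fintype V] [DecidableEq V] [Fintype E] [DecidableEq E]

/-- the multigraph with edge type `E'`, the edge `x` being a copy of `π x` -/
def pull (G : MGraph V E) {E' : Type} (π : E' → E) : MGraph V E' :=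
  ⟨fun x => G.fst (π x), fun x => G.snd (π x), fun x => G.loopless (π x)⟩

theorem mem_cut (G : MGraph V E) (S : Finset V) (e : E) :
    e ∈ G.cut S ↔ (G.fst e ∈ S ∧ G.snd e ∉ S) ∨ (G.fst e ∉ S ∧ G.snd e ∈ S) := by
  simp [MGraph.cut]

variable {E' : Type} [Fintype E'] [DecidableEq E']

theorem mem_cut_pull (G : MGraph V E) (π : E' → E) (S : Finset V) (x : E') :
    x ∈ (pull G π).cut S ↔ π x ∈ G.cut S := by
  rw [mem_cut, mem_cut]
  rfl

/-- the number of edges of a tree is at most the number of edge copies -/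
theorem card_ge_of_isTree (G : MGraph V E) (T : Finset E)
    (h : (SimpleGraph.fromEdgeSet {p : Sym2 V | ∃ e ∈ T, p = s(G.fst e, G.snd e)}).IsTree) :
    Fintype.card V ≤ T.card + 1 := by
  classical
  have h1 := h.card_edgeFinset
  have h2 : (SimpleGraph.fromEdgeSet
      {p : Sym2 V | ∃ e ∈ T, p = s(G.fst e, G.snd e)}).edgeFinset ⊆
      T.image fun e => s(G.fst e, G.snd e) := by
    intro p hp
    rw [SimpleGraph.mem_edgeFinset, SimpleGraph.edgeSet_fromEdgeSet] at hp
    obtain ⟨⟨e, he, rfl⟩, -⟩ := hp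
    exact mem_image_of_mem _ he
  have h3 := (card_le_card h2).trans card_image_le
  omega

theorem isTree_image {G : MGraph V E} {π : E' → E} {T : Finset E'}
    (h : (pull G π).IsSpanningTree T) : G.IsSpanningTree (T.image π) := by
  have hset : {p : Sym2 V | ∃ e ∈ T.image π, p = s(G.fst e, G.snd e)} =
      {p : Sym2 V | ∃ x ∈ T, p = s((pull G π).fst x, (pull G π).snd x)} := by
    ext p
    constructor
    · rintro ⟨e, he, rfl⟩
      obtain ⟨x, hx, rfl⟩ := mem_image.1 he
      exact ⟨x, hx, rfl⟩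
    · rintro ⟨x, hx, rfl⟩
      exact ⟨π x, mem_image_of_mem _ hx, rfl⟩
  have h2 : (SimpleGraph.fromEdgeSet
      {p : Sym2 V | ∃ e ∈ T.image π, p = s(G.fst e, G.snd e)}).IsTree := by
    rw [hset]
    exact h.2
  refine ⟨le_antisymm ?_ (card_ge_of_isTree G _ h2), h2⟩
  rw [← h.1]
  exact Nat.add_le_add_right card_image_le 1

theorem cut_image_le (G : MGraph V E) (π : E' → E) (T : Finset E') (S : Finset V) :
    (T.image π ∩ G.cut S).card ≤ (T ∩ (pull G π).cut S).card := by
  have h : T.image π ∩ G.cut S ⊆ (T ∩ (pull G π).cut S).image π := by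
    intro e he
    rw [mem_inter] at he
    obtain ⟨x, hx, rfl⟩ := mem_image.1 he.1
    exact mem_image_of_mem _ (mem_inter.2 ⟨hx, (mem_cut_pull G π S x).2 he.2⟩)
  exact (card_le_card h).trans card_image_le

theorem sum_cut_le {G : MGraph V E} {π : E' → E} {m : ℕ} {T : Fin m → Finset E'}
    (hT : ∀ i j, i ≠ j → Disjoint (T i) (T j)) (S : Finset V) :
    ∑ i, ((T i).image π ∩ G.cut S).card ≤
      ((univ.biUnion T) ∩ (pull G π).cut S).card := by
  calc ∑ i, ((T i).image π ∩ G.cut S).card
      ≤ ∑ i, (T i ∩ (pull G π).cut S).card := sum_le_sum fun i _ => cut_image_le G π (T i) S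
    _ = (univ.biUnion fun i => T i ∩ (pull G π).cut S).card := by
        rw [card_biUnion]
        intro i _ j _ hij
        exact (hT i j hij).mono inter_subset_left inter_subset_left
    _ = ((univ.biUnion T) ∩ (pull G π).cut S).card := by
        rw [biUnion_inter]

theorem count_le {π : E' → E} {m : ℕ} {T : Fin m → Finset E'}
    (hT : ∀ i j, i ≠ j → Disjoint (T i) (T j)) (e : E) :
    (univ.filter fun i => e ∈ (T i).image π).card ≤ (univ.filter fun x => π x = e).card := by
  calc (univ.filter fun i => e ∈ (T i).image π).card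
      = ∑ i, if e ∈ (T i).image π then 1 else 0 := by rw [card_filter]
    _ ≤ ∑ i, ((T i).filter fun x => π x = e).card := by
        refine sum_le_sum fun i _ => ?_
        split_ifs with h
        · obtain ⟨x, hx, hxe⟩ := mem_image.1 h
          exact card_pos.2 ⟨x, mem_filter.2 ⟨hx, hxe⟩⟩
        · exact Nat.zero_le _
    _ = (univ.biUnion fun i => (T i).filter fun x => π x = e).card := by
        rw [card_biUnion]
        intro i _ j _ hij
        exact (hT i j hij).mono (filter_subset _ _) (filter_subset _ _)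
    _ ≤ (univ.filter fun x => π x = e).card := by
        refine card_le_card fun x hx => ?_
        obtain ⟨i, -, hx⟩ := mem_biUnion.1 hx
        exact mem_filter.2 ⟨mem_univ _, (mem_filter.1 hx).2⟩

/-! ### the disjoint union of trees -/

/-- the edge copies of a family of edge sets -/
abbrev Cop {t : ℕ} (R : Fin t → Finset E) : Type := Σ q : Fin t, {e // e ∈ R q}

/-- the edge of which `x` is a copy -/
def cpi {t : ℕ} (R : Fin t → Finset E) (x : Cop R) : E := x.2.1

/-- the copy of the `q`-th set -/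
def cF {t : ℕ} (R : Fin t → Finset E) (q : Fin t) : Finset (Cop R) :=
  (univ : Finset {e // e ∈ R q}).map
    ⟨fun e => ⟨q, e⟩, fun _ _ h => eq_of_heq (Sigma.mk.inj_iff.1 h).2⟩

theorem mem_cF {t : ℕ} {R : Fin t → Finset E} {q : Fin t} {x : Cop R} :
    x ∈ cF R q ↔ x.1 = q := by
  obtain ⟨q', e⟩ := x
  simp only [cF, mem_map, mem_univ, true_and, Function.Embedding.coeFn_mk]
  constructor
  · rintro ⟨e', he'⟩
    exact (Sigma.mk.inj_iff.1 he').1.symm
  · rintro rfl
    exact ⟨e, rfl⟩

theorem isPacking_cF {G : MGraph V E} {t : ℕ} {R : Fin t → Finset E}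
    (hR : ∀ q, G.IsSpanningTree (R q)) : IsPacking (pull G (cpi R)) (cF R) := by
  refine ⟨fun q => ⟨?_, ?_⟩, fun i j hij => ?_⟩
  · rw [cF, card_map, card_univ, Fintype.card_coe]
    exact (hR q).1
  · have hset : {p : Sym2 V | ∃ x ∈ cF R q, p = s((pull G (cpi R)).fst x, (pull G (cpi R)).snd x)}
        = {p : Sym2 V | ∃ e ∈ R q, p = s(G.fst e, G.snd e)} := by
      ext p
      constructor
      · rintro ⟨x, hx, rfl⟩
        obtain ⟨q', e⟩ := x
        rw [mem_cF] at hx
        dsimp only at hx
        subst hx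
        exact ⟨e.1, e.2, rfl⟩
      · rintro ⟨e, he, rfl⟩
        exact ⟨⟨q, ⟨e, he⟩⟩, mem_cF.2 rfl, rfl⟩
    rw [hset]
    exact (hR q).2
  · rw [Finset.disjoint_left]
    intro x hi hj
    rw [mem_cF] at hi hj
    exact hij (hi.symm.trans hj)

theorem card_cut_cop (G : MGraph V E) {t : ℕ} (R : Fin t → Finset E) (S : Finset V) :
    ((pull G (cpi R)).cut S).card = ∑ q, (R q ∩ G.cut S).card := by
  have h : (pull G (cpi R)).cut S =
      (univ : Finset (Fin t)).sigma fun q => univ.filter fun e : {e // e ∈ R q} => e.1 ∈ G.cut S := by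
    ext x
    rw [mem_cut_pull, mem_sigma, mem_filter]
    simp [cpi]
  rw [h, card_sigma]
  refine sum_congr rfl fun q _ => ?_
  have h2 : (univ.filter fun e : {e // e ∈ R q} => e.1 ∈ G.cut S).map
      ⟨Subtype.val, Subtype.val_injective⟩ = R q ∩ G.cut S := by
    ext e
    simp only [mem_map, mem_filter, mem_univ, true_and, Function.Embedding.coeFn_mk, mem_inter]
    constructor
    · rintro ⟨e', h, rfl⟩
      exact ⟨e'.2, h⟩
    · rintro ⟨h1, h2⟩
      exact ⟨⟨e, h1⟩, h2, rfl⟩
  rw [← h2, card_map]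

theorem card_fiber_cop {t : ℕ} (R : Fin t → Finset E) (e : E) :
    (univ.filter fun x : Cop R => cpi R x = e).card = (univ.filter fun q => e ∈ R q).card := by
  have h : ((univ.filter fun x : Cop R => cpi R x = e).image Sigma.fst) =
      (univ.filter fun q => e ∈ R q) := by
    ext q
    simp only [mem_image, mem_filter, mem_univ, true_and]
    constructor
    · rintro ⟨⟨q', e'⟩, h1, rfl⟩
      rw [← h1]
      exact e'.2
    · intro h1
      exact ⟨⟨q, ⟨e, h1⟩⟩, rfl, rfl⟩
  rw [← h, card_image_of_injOn]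
  rintro ⟨q, e₁, h₁⟩ hx ⟨q', e₂, h₂⟩ hy (hxy : q = q')
  subst hxy
  have hx' : e₁ = e := (mem_filter.1 (mem_coe.1 hx)).2
  have hy' : e₂ = e := (mem_filter.1 (mem_coe.1 hy)).2
  subst hx'
  subst hy'
  rfl

theorem card_fiber_sigma (a : E → ℕ) (e : E) :
    (univ.filter fun y : (Σ e : E, Fin (a e)) => y.1 = e).card = a e := by
  have h : (univ.filter fun y : (Σ e : E, Fin (a e)) => y.1 = e) =
      (univ : Finset (Fin (a e))).map
        ⟨fun j => (⟨e, j⟩ : Σ e : E, Fin (a e)), fun _ _ h => eq_of_heq (Sigma.mk.inj h).2⟩ := by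
    ext y
    obtain ⟨e', j⟩ := y
    simp only [mem_filter, mem_univ, true_and, mem_map, Function.Embedding.coeFn_mk]
    constructor
    · rintro rfl
      exact ⟨j, rfl⟩
    · rintro ⟨j', hj'⟩
      exact (Sigma.mk.inj_iff.1 hj').1.symm
  rw [h, card_map, card_univ, Fintype.card_fin]

theorem card_cut_sigma (G : MGraph V E) (a : E → ℕ) (S : Finset V) :
    ((pull G (Sigma.fst : (Σ e : E, Fin (a e)) → E)).cut S).card = ∑ e ∈ G.cut S, a e := by
  have h : (pull G (Sigma.fst : (Σ e : E, Fin (a e)) → E)).cut S =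
      (G.cut S).sigma fun e => (univ : Finset (Fin (a e))) := by
    ext y
    rw [mem_cut_pull, mem_sigma]
    simp
  rw [h, card_sigma]
  exact sum_congr rfl fun e _ => by rw [card_univ, Fintype.card_fin]

end Vale.Agent.P061.H1
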